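import Vale.Agent.P050.Main

/-!
Local Sidorenko property with a radius governed by the maximum degree instead of the number of
edges.
-/

namespace Vale.Agent.Results.P050.LocalSidorenkoDegree

open MeasureTheory

/-- If a bipartite graph has all degrees at most `Δ`, then its density is at least one in every
kernel of mean one which is within `1 / (10 ^ 7 * Δ)` of one almost everywhere. -/
theorem result {V : Type} [Fintype V] [DecidableEq V] (H : SimpleGraph V) [DecidableRel H.Adj]
    (hH : H.IsBipartite) (Δ : ℕ) (hdeg : ∀ v, H.degree v ≤ Δ)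
    {Ω : Type} [MeasurableSpace Ω] (μ : Measure Ω) [IsProbabilityMeasure μ]
    (W : Ω → Ω → ℝ) (hmeas : Measurable (Function.uncurry W))
    (hsymm : ∀ s t, W s t = W t s) (hmean : ∫ z, W z.1 z.2 ∂μ.prod μ = 1)
    (hnear : ∀ᵐ z ∂μ.prod μ, |W z.1 z.2 - 1| ≤ 1 / ((10 : ℝ) ^ 7 * Δ)) :
    1 ≤ ∫ x, ∏ e ∈ H.edgeFinset,
      Sym2.lift ⟨fun a b => W (x a) (x b), fun a b => hsymm (x a) (x b)⟩ e
        ∂(Measure.pi fun _ : V => μ) :=
  Vale.Agent.P050.one_le_integral_prod H hH Δ hdeg W hmeas hsymm hmean
    (by simpa only [div_div] using hnear)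

end Vale.Agent.Results.P050.LocalSidorenkoDegree
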